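import Vale.Agent.P014U.St
import Vale.Agent.P014U.Bt.Top
import Vale.Agent.P014T.Tp.Bv

/-! # P014U: from the exact count to the discrepancy -/

set_option autoImplicit false
set_option linter.all false

open NumberField
open scoped Classical

noncomputable section

namespace Vale.Agent.P014U.Top

variable [Pp]

export Vale.Agent.P014T.Top (md_sI sI_ne np_eq)

open Vale.Agent.P014 (realPeriod torsionOrder shaPrimary Sha)
open Vale.Agent.P014T (IsBasisModTorsion regulator)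
open Vale.Agent.P022 (Qb GQ IsConj)
open Vale.Agent.P022D.W (dec)
open Vale.Agent.P022E.GW (Ov)
open X4S.Ga (K)
open Vale.Agent.P004F (hq)
open P004M.TE (Pt ga al)
open P004N (RN IsEll cE)
open P004N.T8 (inc)
open P004N.H169 (IsLh)
open P027M.K (TM)
open Bt (dd Z0 Zl Gp p0 Lb Fm)
open P014T.Wm (Fx)
open Lc (Wq tm np)
open P014T.Sm (Md)
open Ba (sp Tk Dv)
open AddSubgroup (zmultiples)

theorem sp_low {Z : Type} [AddCommGroup Z] {a x : Z} {i j : ℕ} (hx : pp ^ j • x = 0)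
    (n : pp ^ i • x ∉ zmultiples a) : Nat.card (zmultiples a) * pp ^ (i + 1) ≤ sp a x := by
  let π := QuotientAddGroup.mk' (zmultiples a)
  have e := Ba.card_map π (zmultiples a ⊔ zmultiples x)
  rw [QuotientAddGroup.ker_mk', inf_eq_left.2 le_sup_left, AddSubgroup.map_sup,
    QuotientAddGroup.map_mk'_self, bot_sup_eq, AddMonoidHom.map_zmultiples,
    Nat.card_zmultiples (π x)] at e
  obtain ⟨k, -, hk⟩ := (Nat.dvd_prime_pow pp_prime).1 (addOrderOf_dvd_of_nsmul_eq_zero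
    (show pp ^ j • π x = 0 by rw [← map_nsmul, hx, map_zero]))
  rw [sp, ← e, hk]
  refine Nat.mul_le_mul_left _ (Nat.pow_le_pow_right pp_pos (Nat.lt_of_not_le fun l => n ?_))
  exact (QuotientAddGroup.eq_zero_iff _).1 ((map_nsmul π _ _).trans
    (addOrderOf_dvd_iff_nsmul_eq_zero.1 (hk ▸ pow_dvd_pow pp l)))

theorem nv {n : ℕ} (h : n ≠ 0) : (pp : ℝ) ^ padicValNat pp n = ‖(n : K)‖⁻¹ := by
  rw [Padic.norm_eq_zpow_neg_valuation (Nat.cast_ne_zero.2 h), Padic.valuation_natCast]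
  simp

theorem val_eq {ρ : ℚ} {α : K} (h : ρ ≠ 0) (e : ‖(ρ : K)‖ = ‖α‖) :
    α ≠ 0 ∧ padicValRat pp ρ = α.valuation := by
  have r : (ρ : K) ≠ 0 := Rat.cast_ne_zero.2 h
  have a : α ≠ 0 := fun z => r (norm_eq_zero.1 (by rw [e, z, norm_zero]))
  rw [Padic.norm_eq_zpow_neg_valuation r, Padic.norm_eq_zpow_neg_valuation a,
    Padic.valuation_ratCast] at e
  exact ⟨a, neg_injective (zpow_right_injective₀ Ba.pos_r Bt.pr1.ne' e)⟩

theorem sha_pow (E : WeierstrassCurve ℚ) (f : Finite (shaPrimary E pp)) :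
    (Nat.card (shaPrimary E pp) : ℝ) = ‖(Nat.card (shaPrimary E pp) : K)‖⁻¹ := by
  have : Finite (AddCommGroup.primaryComponent (Sha E) pp) := f
  have e : Nat.card (shaPrimary E pp) = pp ^ padicValNat pp (Nat.card (shaPrimary E pp)) :=
    (Nat.card_congr (Equiv.subtypeUnivEquiv fun y : AddCommGroup.primaryComponent (Sha E) pp =>
      (AddCommGroup.mem_primaryComponent.1 y.2).imp fun _ a => Subtype.ext a)).symm.trans
      (Lc.card_pp _ pp)
  rw [← nv (e ▸ pow_ne_zero _ pp_ne)]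
  exact_mod_cast e

theorem ex_P {P : Ideal (𝓞 Qb)} (o : Ov pp P) :
    ∃ Q : ℕ → Ideal (𝓞 Qb), Q pp = P ∧ ∀ p, p.Prime → Ov p (Q p) := by
  choose! Q a using fun (p : ℕ) (k : p.Prime) => P022.H916.exists_prime k
  refine ⟨Function.update Q pp P, Function.update_self .., fun p k => ?_⟩
  by_cases e : p = pp
  · subst e
    rwa [Function.update_self]
  · rw [Function.update_of_ne e]
    exact ⟨k, a p k⟩

variable {A B : ℤ} {S T C : Finset ℕ} {c : GQ} {g : X4M.TE.Tm A B} {i j m n q r : ℕ}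
  {x z : GQ → Pt A B}

theorem bd_of (L : Lb A B S) : Bd (sI A B) S := ⟨L.lr.pr, fun p hp d => L.lr.bad p hp
  (by_contra fun k => ((Nat.prime_iff_prime_int.1 hp).dvd_or_dvd d).elim
    (fun e => k (e.mul_right _)) (P014T.Lk.nd hp (X4M.TE.hg_two k)))⟩

theorem z0_up (h : S ⊆ T) : Z0 A B S c ≤ Z0 A B T c := fun _ a =>
  ⟨a.1, a.2.1, a.2.2.1, fun g ⟨l, m, b⟩ => a.2.2.2.1 g ⟨l, fun e => m (h e), b⟩, a.2.2.2.2⟩

theorem nq_low (a : C.card ≤ m) (b : ∀ q ∈ C, ¬ (pp : ℤ) ^ m ∣ nq A B q) :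
    1 ≤ ‖((∏ q ∈ C, nq A B q : ℤ) : K)‖ * pp ^ (m * m) := by
  have : ((pp : ℝ) ^ m)⁻¹ ^ C.card ≤ ‖((∏ q ∈ C, nq A B q : ℤ) : K)‖ := by
    rw [Int.cast_prod, norm_prod, ← Finset.prod_const]
    exact Finset.prod_le_prod (fun _ _ => by positivity) fun q k =>
      (not_le.1 (mt (Ba.int_norm _ _).1 (b q k))).le
  have := Ba.pos_r
  rw [inv_pow, ← pow_mul, inv_le_iff_one_le_mul₀ (by positivity)] at *
  exact le_trans ‹_› (by gcongr; exact Bt.pr1.le)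

/-- the group generated by the coboundary and the class is large -/
theorem sg_low (h : El A B) (G : Gp A B c g) (hx : pp ^ j • x = 0)
    (k : pp ^ i • x ∉ zmultiples (dd A B (TM.cp j g))) : pp ^ (j + i + 1) ≤
      pp ^ padicValNat pp (torsionOrder (Wq (sI A B))) * sp (dd A B (TM.cp j g)) x := by
  have := Lc.ell (sI_ne h)
  obtain ⟨S, p, s⟩ := Cp.Bb.ex_lr h
  have l := Bt.gm_le (s S subset_rfl p).bad G (Bt.card_ag (md_sI A B))
  have e := Ba.card_map ((dd A B).comp (Bt.hm g)) (Tk Dv j)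
  rw [Ba.card_tk, Ba.tk_eq j, AddMonoidHom.map_zmultiples, AddMonoidHom.comp_apply, Bt.hm_u] at e
  rw [Bt.gm_ker] at l
  rw [add_assoc, pow_add, ← e, mul_assoc, ← Ba.card_tk (padicValNat _ _)]
  exact Nat.mul_le_mul (AddSubgroup.card_le_of_le (inf_le_left.trans l)) (sp_low hx k)

/-- the local pairing with a multiple of the class -/
theorem Rc.pr (h : El A B) {P : Ideal (𝓞 Qb)} (o : Ov pp P) {lg : Fx A B (dec P) →+ K} {μ : K}
    (k : Rc h P lg m n z μ) (hz : z ∈ Z0 A B S c) (t : pp ^ n • z = 0) (w : Zl A B (dec P)) (N : ℤ)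
    (e : w.1 = N • z) (y : Fx A B (dec P)) : Cp.pr (Ki.pr (hq h)) (Cp.ivP o) (pp ^ m • y) w =
      ((lg (pp ^ m • y) * (N * μ) / pp ^ n : K) : Dv) := by
  obtain ⟨y', a⟩ := (Ki.pr (hq h)).dvp n (pp ^ m • y).1
  have b := Bt.Z0_le S c (dec P) hz
  rw [show w = N • ⟨z, b⟩ from Subtype.ext e, map_zsmul,
    Cp.pr_eq _ _ _ _ a (.of b fun g _ => congrFun t g), k y y' a]
  refine (QuotientAddGroup.mk_zsmul _ _ _).symm.trans (congrArg _ ?_)
  rw [zsmul_eq_mul]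
  ring

/-- the depleted `L`-function -/
theorem ls (M : MODN) (h : El A B) (a : Ar A B r) : ∃ S₀, Pm S₀ ∧ ∀ S, S₀ ⊆ S → Pm S →
    Lb A B S ∧ ∃ L, IsLh (inc (∏ p ∈ S, p) (cE (Wq (sI A B)))) L ∧ analyticOrderAt L 1 = r ∧
      L 1 = P014T.Rk.Lw (al A B) (cS S 1) := by
  have := Lc.ell (sI_ne h)
  obtain ⟨N, G, b, k⟩ := M A B h
  obtain ⟨L, hL, o⟩ := a
  obtain ⟨S1, -, -, t⟩ := P014T.Lk.at_fin (md_sI A B) k.rn k.fin
  obtain ⟨S2, p2, q2⟩ := Bt.ex_lb h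
  refine ⟨S1.primeFactors ∪ S2, Finset.forall_mem_union.2
    ⟨fun p => Nat.prime_of_mem_primeFactors, p2⟩,
    fun S s p => ⟨q2 S (Finset.union_subset_right s) p, ?_⟩⟩
  have n0 : ∏ p ∈ S, p ≠ 0 := Finset.prod_ne_zero_iff.2 fun q m => (p q m).ne_zero
  have t' : P014T.Lk.At _ b (∏ p ∈ S, p) := ⟨n0, fun n k => t.2 n (by_contra fun e => by
    obtain ⟨q, a1, a2, a3⟩ := Nat.Prime.not_coprime_iff_dvd.1 e
    exact Nat.Prime.not_coprime_iff_dvd.2 ⟨q, a1, a2, Finset.dvd_prod_of_mem _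
      (Finset.union_subset_left s (Nat.mem_primeFactors.2 ⟨a1, a3, t.1⟩))⟩ k)⟩
  have d := P014T.Lk.down (P004N.cE_ldr _) n0 (P014T.Lk.IsEll.lh hL)
  refine ⟨_, d, (P014T.Lk.dep t' hL (t'.inc ▸ d)).2.1.trans o,
    (P014T.Rk.Lw_val k.rn ((P014T.An.pw_const 1).cp n0) d.1 fun s hs => ?_).trans ?_⟩
  · refine (d.2 s hs).trans (t'.inc ▸ tsum_congr fun n => ?_)
    unfold P014T.An.cp inc
    split_ifs <;> simp
  · rw [P014T.Rk.Lw_eq, P014T.Rk.Lw_eq]
    refine congrArg P014T.An.M0 (funext fun n => ?_)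
    unfold P014T.An.cp cS
    split_ifs with e
    · rw [← t'.2 n e, P014T.Lk.lf_md (md_sI A B), Pi.one_apply]
    · simp

/-- **the end of the proof** -/
theorem dis (h : El A B) (L : Lb A B S) (hC : ∀ q ∈ C, q.Prime ∧ q ∉ S) {M : ℂ → ℂ}
    (hM : IsLh (inc (∏ p ∈ S, p) (cE (Wq (sI A B)))) M) (o : analyticOrderAt M 1 = r)
    {Q : Fin r → (Wq (sI A B)).toAffine.Point} (b : IsBasisModTorsion _ Q)
    (f : Finite (shaPrimary (Wq (sI A B)) pp)) {ρ : ℚ} (ρ0 : ρ ≠ 0)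
    (e : iteratedDeriv r M 1 / r.factorial = ρ * (w0 A B * regulator _ Q : ℝ)) {σ : ℤ_[pp]} {α : K}
    (σ0 : σ ≠ 0) (F : Fm (sI A B) 1 (S ∪ C) c g j x ‖((∏ q ∈ C, nq A B q : ℤ) : K) * σ * ρ‖)
    (k : (sp (dd A B (TM.cp j g)) x * cz A B (S ∪ C) c j : ℝ) = ((pp : ℝ) ^ 4) ^ j * ‖(σ : K) * α‖) :
    α ≠ 0 ∧ Bd (sI A B) S ∧ Dis (sI A B) S r α.valuation := by
  have := Lc.ell (sI_ne h)
  have tn : ∀ T : Finset ℕ, Pm T → ∏ p ∈ T, tm (Wq (sI A B)) p * np (sI A B) p ≠ 0 := fun T a =>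
    Finset.prod_ne_zero_iff.2 fun p m => @Lc.tn_ne _ p ⟨a p m⟩ (sI_ne h)
  have v0 := tn S L.lr.pr
  have c0 := tn C fun q m => (hC q m).1
  have t0 := (P014T.Sm.tors_pos (Wq (sI A B))).ne'
  have s0 : Nat.card (shaPrimary (Wq (sI A B)) pp) ≠ 0 := Nat.card_ne_zero.2 ⟨⟨⟨0, zero_mem _⟩⟩, f⟩
  have p1 : p0 A B ≠ 0 := by unfold P014T.Bt.p0; split_ifs <;> simp
  have p2 : ‖(p0 A B : K)‖ = 1 := by
    unfold P014T.Bt.p0
    split_ifs
    · exact_mod_cast norm_two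
    · simp
  have p3 : ‖((∏ p ∈ S, p : ℕ) : K)‖ = (pp : ℝ)⁻¹ := by
    rw [← Finset.mul_prod_erase _ _ L.lr.two, Nat.cast_mul, norm_mul, Padic.norm_p,
      Padic.norm_natCast_eq_one_iff.2 (Nat.Coprime.prod_right fun p m =>
        (Nat.coprime_primes pp_prime (L.lr.pr p (Finset.mem_of_mem_erase m))).2
          (Finset.ne_of_mem_erase m).symm), mul_one]
  have p4 : (∏ p ∈ S, p : ℕ) ≠ 0 := Finset.prod_ne_zero_iff.2 fun q m => (L.lr.pr q m).ne_zero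
  rw [Fm, Finset.prod_union (Finset.disjoint_right.2 fun q m => (hC q m).2), nv (mul_ne_zero v0 c0),
    ← Finset.prod_congr rfl fun q m => np_eq (hC q m).1 (X4M.TE.hg_two fun d => (hC q m).2 (L.lr.bad q (hC q m).1 d)),
    ← Nat.cast_prod, Int.cast_natCast, mul_assoc (_ * ‖_‖) (sp _ _ : ℝ), show (sp _ _ * Bt.cz A B _ c j : ℝ) = _ from k,
    pow_right_comm _ 2 (padicValNat _ _), nv t0, sha_pow _ f] at F
  set V := ∏ p ∈ S, tm (Wq (sI A B)) p * np (sI A B) p with hV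
  set W := ∏ p ∈ C, tm (Wq (sI A B)) p * np (sI A B) p
  set t := torsionOrder (Wq (sI A B)) with ht
  set s := Nat.card (shaPrimary (Wq (sI A B)) pp) with hs
  have r0 : ρ * t ^ 2 * (∏ p ∈ S, p : ℕ) / (p0 A B * s * V) ≠ 0 := by positivity
  have nz : ∀ {n : ℕ}, n ≠ 0 → ‖(n : K)‖ ≠ 0 := fun a => norm_ne_zero_iff.2 (Nat.cast_ne_zero.2 a)
  obtain ⟨a1, a2⟩ := val_eq (α := α) r0 (by
    have := nz v0
    have := nz c0
    have := nz t0
    have := nz s0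
    have := Ba.pos_r
    have := norm_ne_zero_iff.2 σ0
    simp only [Rat.cast_div, Rat.cast_mul, Rat.cast_pow, Rat.cast_natCast, Rat.cast_one, Nat.cast_mul,
      norm_div, norm_mul, norm_pow, norm_one, p2, p3, PadicInt.padic_norm_e_of_padicInt] at F ⊢
    field_simp at F ⊢
    linear_combination F)
  refine ⟨a1, bd_of L, M, Q, _, hM, o, b, f, r0, a2, e.trans ?_⟩
  rw [← Complex.ofReal_ratCast, ← Complex.ofReal_ratCast, ← Complex.ofReal_mul, ← Complex.ofReal_mul,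
    Finset.prod_div_distrib, w0, ← Nat.cast_prod, show ∏ p ∈ S, (tm (Wq (sI A B)) p * np (sI A B) p : ℝ)
      = V by rw [hV]; push_cast; rfl, ← ht, ← hs]
  refine congrArg _ ?_
  simp only [Rat.cast_div, Rat.cast_mul, Rat.cast_pow, Rat.cast_natCast]
  field_simp

end Vale.Agent.P014U.Top
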