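import Vale.Agent.P014U.Tp.Bv

/-! # P014U: the main conjecture gives the formula in rank zero -/

set_option autoImplicit false
set_option linter.all false

open NumberField
open scoped Classical

noncomputable section

namespace Vale.Agent.P014U.Top

variable [Pp]

open Vale.Agent.P014 (torsionOrder)
open Vale.Agent.P022 (GQ)
open X4S.Ga (K)
open Vale.Agent.P004F (hq)
open P004M.TE (Pt)
open Bt (dd Z0)
open Lc (Wq)

theorem ex_pow {x : ℝ} (h : 0 < x) (a : ℕ) : ∃ e : ℕ, (pp : ℝ) ^ a < x * pp ^ e :=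
  (pow_unbounded_of_one_lt ((pp : ℝ) ^ a / x) Bt.pr1).imp fun _ k => (div_lt_iff₀' h).1 k

/-- **rank zero** -/
theorem bv0 (M : MODN) : BV 0 := fun A B h a => by
  obtain ⟨S₀, p₀, k⟩ := ls M h a
  refine ⟨S₀, p₀, fun S α s p ⟨c, P, ι, lg, σ, ρ, m, hc, o, hι, hl, σ0, e, hz⟩ => ?_⟩
  obtain ⟨L, F, hF, om, v⟩ := k S s p
  obtain ⟨Q, rfl, oq⟩ := ex_P o
  obtain ⟨g, G⟩ := Bt.ex_gp h hc
  have := Lc.ell (sI_ne h)
  have := Ba.pos_r
  have := pp_pos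
  have ρ0 : ρ ≠ 0 := fun z => (hF.1 1 P014T.Lk.m1).analyticOrderAt_eq_zero.1 om (by simp [v, e, z])
  obtain ⟨j₀, top⟩ := Bt.top0 (sI_ne h) (md_sI A B) (hq h) hι hl hc G o
  obtain ⟨lg', y, k', -, y0, -⟩ := Lc.two (sI_ne h) (md_sI A B) hι
  obtain rfl := hl.uniq k'
  have κ0 : 0 < ‖(σ * ρ : K)‖ := norm_pos_iff.2 (mul_ne_zero (PadicInt.coe_ne_zero.2 σ0)
    (Rat.cast_ne_zero.2 ρ0))
  have d0 : 0 < ‖lg (pp ^ m • y)‖ := by
    rw [map_nsmul, norm_pos_iff]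
    exact smul_ne_zero (by positivity) y0
  obtain ⟨e1, h1⟩ := ex_pow (mul_pos d0 κ0) (m * m)
  obtain ⟨e2, h2⟩ := ex_pow κ0 (j₀ + m * m)
  generalize hτ : padicValNat pp (torsionOrder (Wq (sI A B))) = τ
  obtain ⟨i, hi⟩ : ∃ i, i = τ + m + 1 + e2 := ⟨_, rfl⟩
  obtain ⟨w, hw, hw'⟩ : ∃ w, e1 + τ + m ≤ w ∧ e1 + τ + m + pp ^ m ≤ w :=
    ⟨_, Nat.le_add_right .., le_rfl⟩
  obtain ⟨z, Z⟩ := hz (i + e1 + w)
  obtain ⟨C, c1, c2, mc⟩ := Z.mc
  obtain ⟨u, r0⟩ := Z.r0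
  have pT : Pm (S ∪ C) := Finset.forall_mem_union.2 ⟨p, fun q a => (c2 q a).1⟩
  have lo := nq_low c1 fun q a => (c2 q a).2.2
  generalize hN : ∏ q ∈ C, nq A B q = N at lo mc
  have zt : pp ^ (i + e1 + w) • N • z = 0 := by rw [smul_comm, Z.tor, zsmul_zero]
  have zm : N • z ∈ Z0 A B (S ∪ C) c := zsmul_mem (z0_up Finset.subset_union_left Z.mem) N
  have pr := r0.pr h o Z.mem Z.tor ⟨_, Bt.Z0_le _ c _ zm⟩ N rfl
  have nl : ‖(N * (((u * σ : ℤ_[pp]) : K) * ρ) : K)‖ = ‖(N : K)‖ * ‖(σ * ρ : K)‖ := by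
    simp only [norm_mul, PadicInt.padic_norm_e_of_padicInt, PadicInt.norm_units, one_mul]
  have big := sg_low h G (i := i) (j := i + e1) (x := pp ^ w • N • z)
    (by rw [← mul_smul, ← pow_add, zt]) fun ⟨t, b⟩ => by
      have := Cp.pr_km (hq h) o (Cp.ivP o) (pp ^ m • y) (pp ^ (i + w) • ⟨_, Bt.Z0_le _ c _ zm⟩)
        ⟨t • _, fun g _ => congrFun (show pp ^ (i + w) • N • z = dd A B _ by
          rw [map_zsmul, pow_add, mul_smul]; exact b.symm) g⟩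
      rw [map_nsmul, pr, ← Ba.mem_Tk, Ba.mk_mem, norm_mul, nl] at this
      rw [add_right_comm, pow_add _ _ e1, mul_left_comm, mul_comm, mul_le_iff_le_one_left
        (by positivity)] at this
      refine h1.not_ge (le_trans ?_ (mul_le_of_le_one_left (by positivity) this))
      calc _ ≤ _ := le_mul_of_one_le_left (by positivity) lo
        _ = _ := by ring
  obtain ⟨cb, eq⟩ := mc g G (e1 + τ) (i + e1) (by omega) (by omega) (by
    rw [sg, Nat.add_sub_cancel_left, sq, mul_pow, pow_add pp e1, mul_assoc,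
      pow_add pp i, mul_comm (pp ^ i), mul_assoc]
    refine Nat.mul_le_mul_left _ (le_trans ?_ (hτ ▸ big))
    rw [← pow_add, ← pow_add]
    exact Nat.pow_le_pow_right pp_pos (by omega))
  obtain ⟨t1, t2, t3⟩ := top (S ∪ C) (k _ (s.trans Finset.subset_union_left) pT).1
    (fun p a => oq p (pT p a)) _ _ (pp ^ m) (i + e1) ⟨_, zm⟩ _ (Subtype.ext zt) cb (by positivity) pr
    (by omega) (by omega) (by
      have : (pp : ℝ) ^ e2 ≤ pp ^ (i + e1) := pow_le_pow_right₀ Bt.pr1.le (by omega)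
      rw [nl, pow_add] at *
      refine le_of_mul_le_mul_right (h2.le.trans ?_) (pow_pos Ba.pos_r (m * m))
      calc _ ≤ (‖(N : K)‖ * pp ^ (m * m)) * (‖(σ * ρ : K)‖ * (pp ^ i * pp ^ e1)) := by
            rw [← one_mul (_ * (pp : ℝ) ^ e2)]; gcongr
        _ = _ := by ring)
  refine dis h L (fun q a => ⟨(c2 q a).1, (c2 q a).2.1⟩) hF om (Q := Fin.elim0) (P014T.Cn.basis_zero.2 t1)
    t2 ρ0 (by simp [v, e, P014T.Cn.reg_zero]) σ0 ?_ eq
  rwa [hN, mul_assoc, norm_mul, ← nl]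

end Vale.Agent.P014U.Top
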